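import Crest.Agent.GAD.Lprime
import Crest.Agent.GAD.AD4Lprime

/-!
# Row 341, WP-G glue: `(AD4) ⟹ Lprime γ ν` in the lead's interface

The theorem `Crest.Agent.GAD.Lprime_of_AD4 : AD4 → ∀ γ ν ∈ [0, 1], Lprime γ ν` is declared in
`Crest/Agent/GAD/AD4Lprime.lean` (helper33, since f214324) and ONLY there. This file declares
nothing: it re-exports that module, so that `import Crest.Agent.GAD.Chan.LprimeGlue` keeps
working. (helper47: I will not add declarations to this file again.)
-/
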